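import Vale.Agent.P004C.Lk.Has0

/-! # P014 Y, block LK: `E₄` modulo three does not change under isogenies prime to three -/

set_option autoImplicit false
set_option linter.all false

open UpperHalfPlane hiding I
open CongruenceSubgroup ModularForm PowerSeries
open scoped MatrixGroups Classical ComplexConjugate Real

noncomputable section

namespace Vale.Agent.P014Y.C.Lk

open Vale.Agent.P022 P027H P027M.M P004K Vale.Agent.P022.H218.L3 Vale.Agent.P022.H236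
  Vale.Agent.P022.H236.L3 Vale.Agent.P022.H542.L3 Vale.Agent.P022D.Irr P004Z.Fin
  Vale.Agent.P022.H231.L3
open P004F.Qx hiding j_unit E4_ser
open P004Z.EF (Val)
open P004C.Lk (mf_up E4_smul g2_hom)

variable {V : AbsoluteValue ℂ ℝ}

/-- `x ≡ y` modulo `3 y` -/
def Rl (V : AbsoluteValue ℂ ℝ) (x y : ℂ) : Prop := V (x - y) ≤ V 3 * V y

theorem Rl.refl (x : ℂ) : Rl V x x := by
  rw [Rl, sub_self, map_zero]
  positivity

theorem Rl.eq (h : Ov V 3) {x y : ℂ} (k : Rl V x y) : V x = V y := by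
  by_cases y0 : y = 0
  · subst y0
    rw [Rl, map_zero, mul_zero, sub_zero] at k
    rw [le_antisymm k (V.nonneg _), map_zero]
  have := h.add_eq (k.trans_lt (mul_lt_of_lt_one_left (V.pos y0) (by simpa using h.lt)))
  rwa [sub_add_cancel] at this

theorem Rl.symm (h : Ov V 3) {x y : ℂ} (k : Rl V x y) : Rl V y x := by
  rw [Rl, V.map_sub, k.eq h]
  exact k

theorem Rl.trans (h : Ov V 3) {x y z : ℂ} (k : Rl V x y) (k' : Rl V y z) : Rl V x z := by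
  rw [Rl, ← sub_add_sub_cancel x y z]
  exact h.add_le (by rw [← k'.eq h]; exact k) k'

theorem Rl.mul {x y : ℂ} (k : Rl V x y) (c : ℂ) : Rl V (c * x) (c * y) := by
  rw [Rl, ← mul_sub, map_mul, map_mul, mul_left_comm]
  exact mul_le_mul_of_nonneg_left k (V.nonneg _)

theorem rl_odd (h : Ov V 3) {n : ℤ} (hn : ¬ 3 ∣ n) (x : ℂ) : Rl V ((n ^ 2 : ℤ) * x) x := by
  obtain ⟨k, e⟩ : 3 ∣ n ^ 2 - 1 := by
    obtain ⟨l, rfl | rfl⟩ : ∃ l, n = 3 * l + 1 ∨ n = 3 * l - 1 := ⟨(n + 1) / 3, by omega⟩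
    exacts [⟨l * (3 * l + 2), by ring⟩, ⟨l * (3 * l - 2), by ring⟩]
  rw [Rl, sub_eq_iff_eq_add.1 e, show ((3 * k + 1 : ℤ) : ℂ) * x - x = k * (3 * x) by
    push_cast; ring, map_mul, map_mul]
  exact mul_le_of_le_one_left (by positivity) (h.le k)

theorem v_odd (h : Ov V 3) {n : ℤ} (hn : ¬ 3 ∣ n) : V n = 1 := h.of_ndvd hn

theorem nd_mul {a b : ℤ} : ¬ 3 ∣ a * b ↔ ¬ 3 ∣ a ∧ ¬ 3 ∣ b := by
  rw [Int.prime_three.dvd_mul, not_or]

theorem E4_ser : ∃ F G : ℤ⟦X⟧, ls 0 (toCi E4i) * ls 0 (toCi G) = 1 ∧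
    ls 0 (toCi E4i) = 1 + HahnSeries.C 3 * ls 0 (toCi F) := by
  refine ⟨PowerSeries.mk fun n => if n = 0 then 0 else 80 * (ArithmeticFunction.sigma 3 n : ℤ),
    E4i.invOfUnit 1, ?_, ?_⟩
  · rw [ls_mul, ← map_mul, mul_invOfUnit _ _ (by simp [E4i]), map_one, add_zero, ls_zero_one]
  · rw [← ls_C, ls_mul, ← ls_zero_one, add_zero, ls_add]
    congr 1
    ext n
    simp only [map_add, coeff_C_mul, coeff_map, E4i, coeff_mk, coeff_one]
    split_ifs <;> simp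
    ring

open Mp P004Z in
/-- ordinary points at three -/
theorem j_unit {M : ℕ} (h : Ov V 3) (d : 3 ∣ M) {D : ℤ} {τ : ℍ} (H : Ty V M D τ) :
    V (jf τ) = 1 := by
  obtain ⟨l, b1, b2, rfl, ⟨t, b3⟩, b4, -⟩ := form h d H
  obtain ⟨ρ, r1, r0⟩ := ex_rho
  obtain ⟨r, rfl⟩ := d
  have := r2 V 3 l (1, 1, 1) τ ρ 1 (disc l) l.2.1 h b1 (by simp) b2 (by simpa [evq] using r1)
    (fun ⟨x, hx⟩ => by
      have e : (l.2.1 ^ 2 - 12 * (r * t * l.2.2)) * -3 = x * x := by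
        rw [← hx, disc, disc, b3]
        push_cast
        ring
      obtain ⟨y, rfl⟩ : 3 ∣ x := (Int.prime_three.dvd_mul.1 ⟨_, by rw [← e, mul_neg, ← neg_mul, mul_comm]⟩).elim
        id id
      exact b4 (Int.prime_three.dvd_of_dvd_pow (n := 2)
        ⟨4 * (r * t * l.2.2) - y * y, by linarith⟩)) (by ring)
    ⟨r * t * l.2.2, by rw [disc, b3]; push_cast; ring⟩ b4
  rw [r0, sub_zero] at this
  exact (h.cm (disc_neg b1 b2) b2).antisymm this

theorem E4_ne' (h : Ov V 3) {M : ℕ} (d : 3 ∣ M) {D : ℤ} {τ : ℍ} (H : Ty V M D τ) : E₄ τ ≠ 0 :=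
  fun z => by simpa [jf, z] using j_unit h d H

/-- forms with small coefficients are small at ordinary points -/
theorem small (h : Ov V 3) {M e : ℕ} (M0 : 0 < M) (d : 3 ∣ M) {g : ℍ → ℂ}
    (hg : IsMF (Gamma0 M) (e * 4) g) {t : LS} (ht : ExL 1 t g) {c : ℂ} (c0 : c ≠ 0)
    (hi : ∀ n, V (t.coeff n) ≤ V c) {D : ℤ} {τ : ℍ} (H : Ty V M D τ) :
    V (g τ) ≤ V c * V (E₄ τ) ^ e := by
  have vp := V.pos c0
  have hE := (isMF_E4.pow e).mono (le_top (a := Gamma0 M))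
  have E0 : (E₄ : ℍ → ℂ) ^ e ≠ 0 := fun z => pow_ne_zero e (E4_ne' h d H) (congrFun z τ)
  obtain ⟨F, G, e1, -⟩ := E4_ser
  have m1 := mul_mem ((MF (Gamma0 M)).algebraMap_mem c⁻¹) (mem_MF.2 ⟨_, _, _, hg, hE, E0, rfl⟩)
  have x2 := (ExM.const 1 c⁻¹).mul (ExL.exM hg.hol hE.hol E0 ht (exL_E4_one.pow e))
  have i2 : HahnSeries.C c⁻¹ * t ∈ Int (vO h.na) := mem_Int.2 fun n => by
    rw [mem_vO, HahnSeries.C_mul_eq_smul, HahnSeries.coeff_smul, smul_eq_mul, map_mul, map_inv₀,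
      inv_mul_le_one₀ vp]
    exact hi n
  have n0 := E4_ne' h d H
  have f1 : (fun τ => E₄ τ ^ 2 / discriminant τ) ∈ Hol :=
    MDifferentiable.div (isMF_E4.pow 2).hol isMF_disc.hol discriminant_ne_zero
  have e3 : jM = inc _ isMF_E4.hol * inc _ f1 := by
    rw [← inc_mul, jM]
    refine inc_congr _ (funext fun τ => ?_)
    simp only [jf, Pi.mul_apply]
    ring
  have e4 : inc _ hE.hol = inc _ isMF_E4.hol ^ e := by
    rw [inc, inc, ← map_pow]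
    rfl
  obtain ⟨r, r1, r2⟩ := mpf h M0 d m1 x2 ((mem_Int (O := vO h.na)).1 (by
      have := mul_mem i2 (pow_mem (int_ls G) e)
      rwa [div_eq_mul_inv, ← inv_pow, ← eq_inv_of_mul_eq_one_right e1, ← mul_assoc]))
    (P := Polynomial.X ^ e) (pow_ne_zero e Polynomial.X_ne_zero)
    (f := algebraMap ℂ Hol c⁻¹ * ⟨g, hg.hol⟩ * ⟨_, f1⟩ ^ e) (by
      have := inc_ne_zero isMF_E4.hol E4_ne
      rw [map_pow, Polynomial.aeval_X, e3, e4, P022K.F0.Cf.jm, map_mul, map_mul, map_pow,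
        ← IsScalarTower.algebraMap_apply]
      show _ = _ * inc g hg.hol * inc _ f1 ^ e
      rw [mul_pow]
      field_simp) H fun b hb => by
      rw [show b = 0 from (by simpa using hb : b = 0 ∧ e ≠ 0).1, sub_zero, j_unit h d H]
  have w2 : Val τ (inc _ hg.hol / inc _ hE.hol) (g τ / E₄ τ ^ e) :=
    ⟨⟨_, hg.hol⟩, ⟨_, hE.hol⟩, pow_ne_zero e n0, div_mul_cancel₀ _ (inc_ne_zero hE.hol E0),
      (div_mul_cancel₀ _ (pow_ne_zero e n0)).symm⟩
  rwa [Vl.uniq r2 (Vl.mul (Vl.const τ c⁻¹) w2), map_mul, map_inv₀, inv_mul_le_one₀ vp, map_div₀,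
    map_pow, div_le_iff₀ (pow_pos (V.pos n0) e)] at r1

/-- the type is kept by odd upper triangular matrices -/
theorem ty_up (h : Ov V 3) {D : ℤ} {τ τ' : ℍ} (H : Ty V 3 D τ) {a b d : ℤ} (ha : ¬ 3 ∣ a)
    (hd : ¬ 3 ∣ d) (e : (d : ℂ) * τ' = a * τ + b) : ∃ D', Ty V 3 D' τ' := by
  obtain ⟨m, n, m', n', β, h1, h2, h3, -⟩ := H
  have d0 : (d : ℂ) ≠ 0 := fun z => by simpa [z] using v_odd h hd
  refine ⟨_, d * (m * a + m' * b), a * a * n + a * b * n' - 3 * m * a * b - 3 * m' * b * b,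
    m' * d * d, d * (a * n' - 3 * m' * b), a * d * β, mul_left_cancel₀ d0 ?_, ?_, ?_, rfl⟩
  · push_cast at h1 h2 ⊢
    linear_combination (a * d * β - 3 * d * (m * a + m' * b)) * e + a * a * d * h1 + a * b * d * h2
  · push_cast at h1 h2 ⊢
    linear_combination a * d * h2 - 3 * m' * d * e
  · rw [map_mul, map_mul, v_odd h ha, v_odd h hd, h3, mul_one, mul_one]

theorem e4_mul (h : Ov V 3) {D : ℤ} {τ τ' : ℍ} (H : Ty V 3 D τ) {n : ℕ} (hn : ¬ (3 : ℤ) ∣ n)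
    (e : (τ' : ℂ) = n * τ) : Rl V (E₄ τ') (E₄ τ) := by
  obtain ⟨m, k, m', k', β, h1, h2, h3, -⟩ := H
  have n0 : 0 < n := Nat.pos_of_ne_zero fun z => hn (by simp [z])
  obtain ⟨F, G, -, e2⟩ := E4_ser
  have := small h (M := 3 * n) (e := 1) (by omega) (dvd_mul_right _ _)
    (((mf_up n0).mono fun γ k => mem_G0.2 ((Int.natCast_dvd_natCast.2 (dvd_mul_left n 3)).trans
      (mem_G0.1 k))).sub (isMF_E4.mono le_top))
    ((exL_E4_one.mulTau n0 (H236.L3.dg_coe n0)).sub exL_E4_one) three_ne_zero (fun i => by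
      rw [e2, map_add, map_one, map_mul, sb_C, add_sub_add_left_eq_sub, ← mul_sub,
        HahnSeries.C_mul_eq_smul, HahnSeries.coeff_smul, smul_eq_mul, map_mul]
      exact mul_le_of_le_one_right (V.nonneg _) ((mem_Int (O := vO h.na)).1
        (sub_mem ((sb_int n0).2 (int_ls F)) (int_ls F)) i))
    (τ := τ) ⟨m, n * k, m', n * k', n * β, by push_cast at h1 ⊢; linear_combination n * h1,
      by push_cast at h2 ⊢; linear_combination n * h2,
      by rw [map_mul, h3, mul_one]; simpa using v_odd h hn, rfl⟩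
  rw [pow_one, Pi.sub_apply, show gl _ (diag_pos n0) • τ = τ' from
    UpperHalfPlane.ext ((H236.L3.dg_coe n0 τ).trans e.symm)] at this
  exact this

theorem e4_up (h : Ov V 3) {D : ℤ} {τ τ' : ℍ} (H : Ty V 3 D τ) {a d : ℕ} {b : ℤ}
    (ha : ¬ (3 : ℤ) ∣ a) (hd : ¬ (3 : ℤ) ∣ d) (e : (d : ℂ) * τ' = a * τ + b) :
    Rl V (E₄ τ') (E₄ τ) := by
  have a0 : 0 < a := Nat.pos_of_ne_zero fun z => ha (by simp [z])
  have d0 : 0 < d := Nat.pos_of_ne_zero fun z => hd (by simp [z])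
  obtain ⟨D', H'⟩ := ty_up h H ha hd (τ' := τ') (b := b) (by exact_mod_cast e)
  have k1 := e4_mul h H ha (H236.L3.dg_coe a0 τ)
  have k2 := e4_mul h H' hd (H236.L3.dg_coe d0 τ')
  have e1 : gl _ (diag_pos d0) • τ' = ModularGroup.T ^ b • gl _ (diag_pos a0) • τ :=
    UpperHalfPlane.ext (by 
      rw [ModularGroup.coe_T_zpow_smul_eq, H236.L3.dg_coe d0, H236.L3.dg_coe a0, e])
  rw [e1, E4_smul, ModularGroup.coe_T_zpow] at k2
  simp only [Matrix.of_apply, Matrix.cons_val', Matrix.cons_val_zero, Matrix.cons_val_one,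
    Matrix.cons_val_fin_one, Int.cast_zero, Int.cast_one, zero_mul, zero_add, one_pow,
    one_mul] at k2
  exact (k2.symm h).trans h k1

/-- a basis adapted to the level three structure -/
theorem ex_ty (h : Ov V 3) {Λ : Submodule ℤ ℂ} (hΛ : IsLat Λ) {β : ℂ} (h1 : V β = 1)
    (h2 : V (conj β) < 1) (h3 : ∀ z ∈ Λ, β * z ∈ Λ) : ∃ ω τ D, Hom ω (lat τ) Λ ∧ Ty V 3 D τ := by
  obtain ⟨ω, τ, k⟩ := ex_lat hΛ
  have m : ∀ z ∈ lat τ, β * z ∈ lat τ := fun z hz =>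
    (k.2 _).2 (mem_of_eq (h3 _ ((k.2 _).1 hz)) (by ring))
  obtain ⟨a, b, e1⟩ := mem_lat.1 (m _ (tau_lat τ))
  obtain ⟨c, d, e2⟩ := mem_lat.1 (m _ (one_lat τ))
  rw [mul_one] at e2
  have q : (β - a) * (β - d) = b * c := by linear_combination -(β - a) * e2 - c * e1
  have q' : (conj β - a) * (conj β - d) = b * c := by simpa using congrArg conj q
  have ne : β - conj β ≠ 0 := fun z => by
    rw [← sub_eq_zero.1 z, h1] at h2
    exact h2.false
  have t : β + conj β = a + d := mul_left_cancel₀ ne (by linear_combination q - q')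
  have ev : (3 : ℤ) ∣ a * d - b * c := by_contra fun z => by
    have := h.of_ndvd z
    rw [show ((a * d - b * c : ℤ) : ℂ) = β * conj β by
      push_cast; linear_combination q - β * t, map_mul, h1, one_mul] at this
    exact h2.ne this
  have key : ∀ γ : SL(2, ℤ), (3 : ℤ) ∣ a * γ 1 1 - b * γ 1 0 → (3 : ℤ) ∣ c * γ 1 1 - d * γ 1 0 →
      ∃ ω τ D, Hom ω (lat τ) Λ ∧ Ty V 3 D τ := fun γ ⟨x, hx⟩ ⟨y, hy⟩ => by
    have e := P004K.coe_smul γ τ
    have hd : (γ 0 0 : ℂ) * γ 1 1 - γ 0 1 * γ 1 0 = 1 := by exact_mod_cast det_eq γ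
    have hx' : (a : ℂ) * γ 1 1 - b * γ 1 0 = 3 * x := by exact_mod_cast hx
    have hy' : (c : ℂ) * γ 1 1 - d * γ 1 0 = 3 * y := by exact_mod_cast hy
    refine ⟨_, _, _, (hom_smul γ τ).trans k, γ 0 0 * x + γ 0 1 * y,
      γ 0 0 * (b * γ 0 0 - a * γ 0 1) + γ 0 1 * (d * γ 0 0 - c * γ 0 1), γ 1 0 * x + γ 1 1 * y,
      γ 1 0 * (b * γ 0 0 - a * γ 0 1) + γ 1 1 * (d * γ 0 0 - c * γ 0 1), β,
      mul_left_cancel₀ (den_ne γ τ) ?_, mul_left_cancel₀ (den_ne γ τ) ?_, h1, rfl⟩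
    · push_cast
      linear_combination (β - 3 * (γ 0 0 * x + γ 0 1 * y)) * e - γ 0 0 * e1 - γ 0 1 * e2 -
        (γ 0 0 * (a * τ + b) + γ 0 1 * (c * τ + d)) * hd +
        (γ 0 0 * τ + γ 0 1) * (γ 0 0 * hx' + γ 0 1 * hy')
    · push_cast
      linear_combination (- 3 * (γ 1 0 * x + γ 1 1 * y)) * e - γ 1 0 * e1 - γ 1 1 * e2 -
        (γ 1 0 * (a * τ + b) + γ 1 1 * (c * τ + d)) * hd +
        (γ 0 0 * τ + γ 0 1) * (γ 1 0 * hx' + γ 1 1 * hy')
  have k3 : (3 ∣ a ∧ 3 ∣ c) ∨ (3 ∣ b ∧ 3 ∣ d) ∨ (3 ∣ a + b ∧ 3 ∣ c + d) ∨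
      (3 ∣ a - b ∧ 3 ∣ c - d) := by
    have : ∀ a b c d : ZMod 3, a * d - b * c = 0 → (a = 0 ∧ c = 0) ∨ (b = 0 ∧ d = 0) ∨
      (a + b = 0 ∧ c + d = 0) ∨ (a - b = 0 ∧ c - d = 0) := by decide
    have z : ∀ x : ℤ, (3 : ℤ) ∣ x ↔ (x : ZMod 3) = 0 := fun x =>
      (ZMod.intCast_zmod_eq_zero_iff_dvd x 3).symm
    simp only [z] at ev ⊢
    push_cast at ev ⊢
    exact this _ _ _ _ ev
  rcases k3 with ⟨x, y⟩ | ⟨x, y⟩ | ⟨x, y⟩ | ⟨x, y⟩
  · exact key 1 (by simpa using x) (by simpa using y)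
  · exact key ModularGroup.S (by simpa [ModularGroup.S] using x) (by simpa [ModularGroup.S] using y)
  · exact key ⟨!![1, 0; -1, 1], by simp [Matrix.det_fin_two]⟩ (by simpa using x) (by simpa using y)
  · exact key ⟨!![1, 0; 1, 1], by simp [Matrix.det_fin_two]⟩ (by simpa using x) (by simpa using y)

/-- **the Hasse invariant**: `Λ` is ordinary, `Λ'` is commensurable with indices prime to three -/
theorem has0 (h : Ov V 3) {Λ Λ' : Submodule ℤ ℂ} (hΛ : IsLat Λ) (hΛ' : IsLat Λ') {β : ℂ}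
    (h1 : V β = 1) (h2 : V (conj β) < 1) (h3 : ∀ z ∈ Λ, β * z ∈ Λ) {n : ℤ} (hn : ¬ 3 ∣ n)
    (l : ∀ z ∈ Λ, n * z ∈ Λ') (l' : ∀ z ∈ Λ', n * z ∈ Λ) :
    Rl V (12 * g2 Λ') (12 * g2 Λ) ∧ V (12 * g2 Λ) ^ 3 = V (g2 Λ ^ 3 - 27 * g3 Λ ^ 2) := by
  obtain ⟨ω, τ, D, k, H⟩ := ex_ty h hΛ h1 h2 h3
  obtain ⟨ω', τ', k'⟩ := ex_lat hΛ'
  have n0 : (n : ℂ) ≠ 0 := fun z => by simpa [z] using v_odd h hn
  have w0 := k.1
  have w0' := k'.1
  have m : ∀ z ∈ lat τ', ω⁻¹ * (n * (ω' * z)) ∈ lat τ := fun z hz =>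
    (k.symm.2 _).1 (l' _ ((k'.2 _).1 hz))
  have m' : ∀ z ∈ lat τ, ω'⁻¹ * (n * (ω * z)) ∈ lat τ' := fun z hz =>
    (k'.symm.2 _).1 (l _ ((k.2 _).1 hz))
  obtain ⟨a, b, e1⟩ := mem_lat.1 (m _ (tau_lat τ'))
  obtain ⟨p, q, e2⟩ := mem_lat.1 (m _ (one_lat τ'))
  obtain ⟨a', b', e3⟩ := mem_lat.1 (m' _ (tau_lat τ))
  obtain ⟨p', q', e4⟩ := mem_lat.1 (m' _ (one_lat τ))
  have i := mul_inv_cancel₀ w0
  have i' := mul_inv_cancel₀ w0'
  obtain ⟨c, hc⟩ : ∃ c, c = ω⁻¹ * n * ω' := ⟨_, rfl⟩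
  have c0 : c ≠ 0 := by rw [hc]; exact mul_ne_zero (mul_ne_zero (inv_ne_zero w0) n0) w0'
  have e1' : (a : ℂ) * τ + b = c * τ' := by rw [e1, hc]; ring
  have e2' : (p : ℂ) * τ + q = c := by rw [e2, hc]; ring
  have e3' : c * (a' * τ' + b') = n * n * τ := by rw [e3, hc]; field_simp
  have e4' : c * (p' * τ' + q') = n * n := by rw [e4, hc]; field_simp
  obtain ⟨f1, f2⟩ := lin_inj (τ := τ) (a := a' * a + b' * p) (b := a' * b + b' * q) (a' := n * n)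
    (b' := 0) (by push_cast; linear_combination a' * e1' + b' * e2' + e3')
  obtain ⟨f3, f4⟩ := lin_inj (τ := τ) (a := p' * a + q' * p) (b := p' * b + q' * q) (a' := 0)
    (b' := n * n) (by push_cast; linear_combination p' * e1' + q' * e2' + e4')
  have od : ¬ 3 ∣ (a * q - b * p) * (a' * q' - b' * p') := by
    rw [show (a * q - b * p) * (a' * q' - b' * p') = n * n * (n * n) by
      linear_combination (p' * b + q' * q) * f1 + n * n * f4 - (p' * a + q' * p) * f2]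
    exact nd_mul.2 ⟨nd_mul.2 ⟨hn, hn⟩, nd_mul.2 ⟨hn, hn⟩⟩
  have e5 : (τ' : ℂ) * (Complex.normSq c : ℝ) = (a * τ + b) * conj ((p : ℂ) * τ + q) := by
    rw [e1', e2', ← Complex.mul_conj]
    ring
  have e6 := congrArg Complex.im e5
  simp only [Complex.mul_im, Complex.ofReal_re, Complex.ofReal_im, Complex.add_re, Complex.add_im,
    Complex.mul_re, Complex.conj_re, Complex.conj_im, Complex.intCast_re, Complex.intCast_im,
    coe_im, coe_re] at e6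
  have pos : (0 : ℝ) < ((a * q - b * p : ℤ) : ℝ) := by
    have h1 := mul_pos τ'.im_pos (Complex.normSq_pos.2 c0)
    refine pos_of_mul_pos_left (b := τ.im) (lt_of_lt_of_eq h1 ?_) τ.im_pos.le
    push_cast
    linear_combination e6
  obtain ⟨γ, u, d, v, u0, d0, e⟩ := Pbm.hermite !![a, b; p, q] (by
    rw [Matrix.det_fin_two_of]; exact_mod_cast pos)
  have dt := congrArg Matrix.det e
  rw [Matrix.det_mul, γ.det_coe, Matrix.det_fin_two_of, Matrix.det_fin_two_of, one_mul, mul_zero,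
    sub_zero] at dt
  have o2 := nd_mul.1 (dt ▸ (nd_mul.1 od).1)
  have g1 : a = γ 0 0 * u := by simpa [Matrix.mul_apply] using congrFun (congrFun e 0) 0
  have g2' : b = γ 0 0 * v + γ 0 1 * d := by simpa [Matrix.mul_apply] using congrFun (congrFun e 0) 1
  have g3' : p = γ 1 0 * u := by simpa [Matrix.mul_apply] using congrFun (congrFun e 1) 0
  have g4 : q = γ 1 0 * v + γ 1 1 * d := by simpa [Matrix.mul_apply] using congrFun (congrFun e 1) 1
  have s := P004K.coe_smul γ⁻¹ τ'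
  have hd : (γ 0 0 : ℂ) * γ 1 1 - γ 0 1 * γ 1 0 = 1 := by exact_mod_cast det_eq γ
  simp only [Matrix.SpecialLinearGroup.coe_inv, Matrix.adjugate_fin_two, Matrix.of_apply,
    Matrix.cons_val', Matrix.cons_val_zero, Matrix.cons_val_one, Matrix.cons_val_fin_one,
    Int.cast_neg] at s
  subst g1 g2' g3' g4
  push_cast at e1' e2'
  have j1 : c * (-γ 1 0 * τ' + γ 0 0) = d := by
    linear_combination γ 1 0 * e1' - γ 0 0 * e2' + d * hd
  have j2 : (d : ℂ) * (γ⁻¹ • τ' : ℍ) = u * τ + v := by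
    linear_combination c * s - (γ⁻¹ • τ' : ℍ) * j1 - γ 1 1 * e1' + γ 0 1 * e2' + (u * τ + v) * hd
  have r := e4_up h H o2.1 o2.2 j2
  have s4 := E4_smul γ⁻¹ τ'
  simp only [Matrix.SpecialLinearGroup.coe_inv, Matrix.adjugate_fin_two, Matrix.of_apply,
    Matrix.cons_val', Matrix.cons_val_zero, Matrix.cons_val_one, Matrix.cons_val_fin_one,
    Int.cast_neg] at s4
  refine ⟨?_, ?_⟩
  · have r1 := (rl_odd h (nd_mul.2 ⟨hn, hn⟩) _).trans h (r.mul ((2 * π / ω) ^ 4))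
    rw [← g2_hom k] at r1
    refine ((rl_odd h (nd_mul.2 ⟨o2.2, o2.2⟩) _).symm h).trans h ?_
    convert r1 using 1
    rw [g2_hom k', s4]
    push_cast
    rw [← j1, hc]
    field_simp
  · have := j_unit h dvd_rfl H
    have d0 : g2 Λ ^ 3 - 27 * g3 Λ ^ 2 ≠ 0 := fun z => hΛ.disc_ne (by linear_combination -z / 16)
    rw [← jL_lat, ← jL_hom k (isLat τ), jL, map_div₀, div_eq_one_iff_eq (V.pos d0).ne'] at this
    rw [← this, ← map_pow]
    congr 1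
    ring

end Vale.Agent.P014Y.C.Lk
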